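import Crest.Agent.N250.Defs

/-!
# Row 250 (helper26): toolbox statements

Every `…S : Prop` is one leaf; prove it as `theorem …S_holds : …S` (or `…S_of` from other leaves).
-/

set_option autoImplicit false
open MeasureTheory Set Filter Topology
open scoped ContDiff InnerProductSpace
open Crest.GeometryTopology.MCF

noncomputable section

namespace Crest.Agent.N250

/-- on the part of the track with times in `J`, `f` vanishes off a compact subset of the track -/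
def Mv.CS (F : Mv) (f : ST → ℝ) (J : Set ℝ) : Prop :=
  ∃ K, IsCompact K ∧ K ⊆ F.M ∧ ∀ p ∈ F.M, p.2 ∈ J → p ∉ K → f p = 0

/-- the area measures are locally finite along the track, uniformly in time -/
def MuFinS : Prop := ∀ F : Mv, F.Reg → ∀ K : Set ST, IsCompact K → K ⊆ F.M →
  ∃ C : ℝ, ∀ t y r, 0 < r → F.mu t ({x | (x, t) ∈ K} ∩ Metric.ball y r) ≤ ENNReal.ofReal (C * r ^ 2)

/-- divergence theorem on a slice -/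
def DivS : Prop := ∀ F : Mv, F.Reg → ∀ (f : ST → ℝ) (t : ℝ) (a : Fin 3), F.Sm f → F.CS f {t} →
  ∫ x, F.D a f (x, t) ∂F.mu t = ∫ x, f (x, t) * F.H (x, t) * F.nu a (x, t) ∂F.mu t

/-- first variation in time -/
def TransS : Prop := ∀ F : Mv, F.Reg → ∀ (f : ST → ℝ) (J : Set ℝ), IsOpen J → F.Sm f → F.CS f J →
  ∀ t ∈ J, HasDerivAt (fun s => ∫ x, f (x, s) ∂F.mu s)
    (∫ x, (F.Dt f (x, t) + f (x, t) * F.V (x, t) * F.H (x, t)) ∂F.mu t) t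

/-- continuity in time of slice integrals -/
def MuContS : Prop := ∀ F : Mv, F.Reg → ∀ (f : ST → ℝ) (J : Set ℝ), IsOpen J →
  ContinuousOn f F.M → F.CS f J → ContinuousOn (fun s => ∫ x, f (x, s) ∂F.mu s) J

/-- weighted monotonicity formula -/
def WMonoS : Prop := ∀ F : Mv, F.IsMCF → ∀ (X : ST) (f : ST → ℝ) (J : Set ℝ), IsOpen J →
  J ⊆ Iio X.2 → F.Sm f → F.CS f J → ∀ t ∈ J,
  HasDerivAt (fun s => ∫ x, f (x, s) * Phi X (x, s) ∂F.mu s)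
    (∫ x, (F.box f (x, t) - f (x, t) * F.dev X (x, t) ^ 2) * Phi X (x, t) ∂F.mu t) t

/-- Huisken's monotonicity formula for complete flows -/
def HuiskenS : Prop := ∀ (F : Mv) (I : Set ℝ) (Λ : ℝ), IsOpen I → Fl F I Λ → ∀ (X : ST) (t₁ t₂ : ℝ),
  t₁ ≤ t₂ → t₂ < X.2 → Icc t₁ t₂ ⊆ I →
  F.Fs t₂ X.1 (X.2 - t₂) ≤ F.Fs t₁ X.1 (X.2 - t₁) ∧
  F.stI (fun p => F.dev X p ^ 2 * Phi X p) t₁ t₂ =
    ENNReal.ofReal (F.Fs t₁ X.1 (X.2 - t₁) - F.Fs t₂ X.1 (X.2 - t₂))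

/-- Gaussian areas against area ratios (pure measure theory), both directions -/
def GauS : Prop := ∃ C : ℝ, 0 < C ∧ ∀ (μ : Measure E) (Λ : ℝ), 0 ≤ Λ →
  ((∀ y r, 0 < r → μ (Metric.ball y r) ≤ ENNReal.ofReal (Λ * r ^ 2)) →
    ∀ y s, 0 < s → Integrable (gau y s) μ ∧ ∫ x, gau y s x ∂μ ≤ C * Λ ∧
      ∀ R, 0 < R → ∫ x in (Metric.ball y (R * √s))ᶜ, gau y s x ∂μ ≤ C * Λ * Real.exp (-R ^ 2 / 8)) ∧
  (∀ y r, 0 < r → ∫⁻ x, ENNReal.ofReal (gau y (r ^ 2) x) ∂μ ≤ ENNReal.ofReal Λ →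
    μ (Metric.ball y r) ≤ ENNReal.ofReal (C * Λ * r ^ 2))

/-- the Gaussian area is continuous in time, centre and scale -/
def FsContS : Prop := ∀ (F : Mv) (I : Set ℝ) (Λ : ℝ), IsOpen I → Fl F I Λ →
  ContinuousOn (fun q : ℝ × E × ℝ => F.Fs q.1 q.2.1 q.2.2) (I ×ˢ univ ×ˢ Ioi 0)

/-- density one at points of the flow -/
def DensS : Prop := ∀ (F : Mv) (I : Set ℝ) (Λ : ℝ), IsOpen I → Fl F I Λ → ∀ p ∈ F.M,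
  Tendsto (fun r => F.Fg p r) (𝓝[>] 0) (𝓝 1)

/-- pointwise maximum principle: in a slice, and backwards in time -/
def MaxS : Prop := ∀ F : Mv, F.Reg → ∀ (f : ST → ℝ), F.Sm f → ∀ p ∈ F.M,
  (IsLocalMaxOn f (F.M ∩ {q | q.2 = p.2}) p → (∀ a, F.D a f p = 0) ∧
    (∀ v : Fin 3 → ℝ, ∑ a, ∑ b, F.pre.hess f a b p * (v a * v b) ≤ 0) ∧ F.lap f p ≤ 0) ∧
  (IsLocalMaxOn f (F.M ∩ {q | q.2 ≤ p.2}) p → 0 ≤ F.Dt f p)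

/-- weak maximum principle -/
def WMaxS : Prop := ∀ F : Mv, F.Reg → ∀ (f : ST → ℝ) (t₁ t₂ c : ℝ), F.Sm f →
  (∀ ε, 0 < ε → IsCompact {p | p ∈ F.M ∧ p.2 ∈ Icc t₁ t₂ ∧ ε ≤ f p}) →
  (∀ p ∈ F.M, p.2 = t₁ → f p ≤ 0) →
  (∀ p ∈ F.M, p.2 ∈ Ioc t₁ t₂ → 0 < f p → (∀ a, F.D a f p = 0) → F.lap f p ≤ 0 →
    F.Dt f p ≤ c * f p) →
  ∀ p ∈ F.M, p.2 ∈ Icc t₁ t₂ → f p ≤ 0

/-- local parametrisation of the track in normal coordinates at `p` (for two-point arguments):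
`Ψ (w, s) ∈ M`, time preserving, `D_w Ψ = e`, `D_w² Ψ = -A n`, `∂_s Ψ = V n` at the base point -/
def ChartS : Prop := ∀ F : Mv, F.Reg → ∀ p ∈ F.M, ∃ (Ψ : ST → E) (U : Set ST), IsOpen U ∧
  ((0 : E), p.2) ∈ U ∧ ContDiffOn ℝ ∞ Ψ U ∧ Ψ (0, p.2) = p.1 ∧ (∀ q ∈ U, (Ψ q, q.2) ∈ F.M) ∧
  (∀ v c, fderiv ℝ Ψ (0, p.2) (v, c) = F.PL p v + (c * F.V p) • F.n p) ∧
  ∀ v w, fderiv ℝ (fun q => fderiv ℝ Ψ q (w, 0)) (0, p.2) (v, 0) =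
    -(∑ a, ∑ b, F.A a b p * (v a * w b)) • F.n p

/-- sphere avoidance -/
def AvoidS : Prop := ∀ F : Mv, F.IsMCF → ∀ (y : E) (r t₁ t₂ : ℝ), 0 ≤ r →
  F.Proper (Metric.ball y r ×ˢ Icc t₁ t₂) → (∀ x ∈ F.sl t₁, r ≤ dist x y) →
  ∀ t ∈ Icc t₁ t₂, ∀ x ∈ F.sl t, r ^ 2 - 4 * (t - t₁) ≤ dist x y ^ 2

/-- two-sided balls bound the curvature -/
def ReachAS : Prop := ∀ F : Mv, F.Reg → ∀ p ∈ F.M, ∀ ρ, 0 < ρ → F.Reach p ρ →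
  (∀ v : Fin 3 → ℝ, |∑ a, ∑ b, F.A a b p * (v a * v b)| ≤ (∑ a, v a ^ 2) / ρ) ∧
    F.A2 p ≤ 2 / ρ ^ 2

/-- positive reach on compact pieces of a proper surface -/
def ReachPosS : Prop := ∀ F : Mv, F.Reg → ∀ Ω K : Set ST, IsOpen Ω → F.Proper Ω → IsCompact K →
  K ⊆ Ω → ∃ ρ, 0 < ρ ∧ ∀ p ∈ F.M ∩ K, F.Reach p ρ

/-- Bernstein (Ecker–Huisken) interior estimates -/
def BernS : Prop := ∀ k : ℕ, ∃ C : ℝ, ∀ (F : Mv) (X : ST) (r : ℝ), F.IsMCF → 0 < r →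
  F.Proper (PC X r) → (∀ p ∈ F.M ∩ PC X r, F.A2 p ≤ 1 / r ^ 2) →
  ∀ p ∈ F.M ∩ PC X (r / 2), F.NJet k (C / r ^ k) p

/-- one sheet with all spacetime jets, up to the top time (unit scale) -/
def SheetS : Prop := ∃ (c : ℝ) (C : ℕ → ℝ), 0 < c ∧ ∀ (F : Mv) (X : ST), F.IsMCF → X ∈ F.M →
  F.Proper (PC X 1) → (∀ p ∈ F.M ∩ PC X 1, F.Reach p 1) →
  ∃ (W : Set ST) (u : ST → ℝ), PC X c ⊆ W ∧
    F.Loc W (fun p => ⟪p.1 - X.1, F.n X⟫_ℝ - u p) ∧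
    (∀ (p : ST) (s : ℝ), u (p.1 + s • F.n X, p.2) = u p) ∧
    (∀ p ∈ PC X c, ‖gradX u p.1 p.2‖ ≤ 1 / 2) ∧
    ∀ m, ∀ p ∈ PC X c, ‖iteratedFDeriv ℝ m u p‖ ≤ C m

/-- compactness of flows with locally uniform reach -/
def CptS : Prop := ∀ (α : Type) (l : Ultrafilter α) (Fk : α → Mv) (Ω : Set ST), IsOpen Ω →
  (∀ p ∈ Ω, ∃ U ∈ 𝓝 p, ∃ ρ, 0 < ρ ∧ ∀ᶠ k in (l : Filter α), (Fk k).IsMCF ∧ (Fk k).Proper U ∧
    ∀ q ∈ (Fk k).M ∩ U, (Fk k).Reach q ρ) →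
  ∃ F : Mv, F.IsMCF ∧ F.M ⊆ Ω ∧ F.Proper Ω ∧ Conv l Fk F Ω

/-- points and jets converge -/
def ConvJetS : Prop := ∀ (α : Type) (l : Filter α) [l.NeBot] (Fk : α → Mv) (F : Mv) (Ω : Set ST),
  Conv l Fk F Ω →
  (∀ (pk : α → ST) (p : ST), p ∈ Ω → Tendsto pk l (𝓝 p) → (∀ᶠ k in l, pk k ∈ (Fk k).M) →
    p ∈ F.M ∧ Tendsto (fun k => (Fk k).V (pk k)) l (𝓝 (F.V p)) ∧
    ∀ (w : List (Fin 3)) (a : Fin 3),
      Tendsto (fun k => (Fk k).DL w ((Fk k).nu a) (pk k)) l (𝓝 (F.DL w (F.nu a) p))) ∧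
  ∀ p ∈ Ω, p ∈ F.M → ∀ tk : α → ℝ, Tendsto tk l (𝓝 p.2) →
    ∃ xk : α → E, Tendsto xk l (𝓝 p.1) ∧ ∀ᶠ k in l, (xk k, tk k) ∈ (Fk k).M

/-- integrals of functions of point, normal and second fundamental form converge -/
def ConvMuS : Prop := ∀ (α : Type) (l : Filter α) (Fk : α → Mv) (F : Mv) (Ω K : Set ST),
  IsOpen Ω → Conv l Fk F Ω → IsCompact K → K ⊆ Ω →
  ∀ g : ST × E × (Fin 3 → Fin 3 → ℝ) → ℝ, Continuous g → (∀ q, q.1 ∉ K → g q = 0) →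
  ∀ (tk : α → ℝ) (t : ℝ), Tendsto tk l (𝓝 t) →
  Tendsto (fun k => ∫ x, g ((x, tk k), (Fk k).n (x, tk k), fun a b => (Fk k).A a b (x, tk k))
      ∂(Fk k).mu (tk k)) l
    (𝓝 (∫ x, g ((x, t), F.n (x, t), fun a b => F.A a b (x, t)) ∂F.mu t))

/-- reach is continuous under smooth convergence -/
def ConvReachS : Prop := ∀ (α : Type) (l : Filter α) [l.NeBot] (Fk : α → Mv) (F : Mv) (Ω : Set ST),
  IsOpen Ω → Conv l Fk F Ω → ∀ (pk : α → ST) (p : ST) (ρ : ℝ), 0 < ρ → Tendsto pk l (𝓝 p) →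
  (∀ᶠ k in l, pk k ∈ (Fk k).M) → Metric.closedBall p.1 (2 * ρ) ×ˢ {p.2} ⊆ Ω →
  ((∀ᶠ k in l, (Fk k).Reach (pk k) ρ) → F.Reach p ρ) ∧
  (F.Reach p ρ → ∀ ρ' < ρ, ∀ᶠ k in l, (Fk k).Reach (pk k) ρ')

/-- complete flows, Gaussian areas and local Gauss–Bonnet pass to limits -/
def ConvFlS : Prop := ∀ (α : Type) (l : Filter α) [l.NeBot] (Fk : α → Mv) (Ik : α → Set ℝ) (F : Mv)
  (I : Set ℝ) (Λ : ℝ), IsOpen I → (∀ᶠ k in l, Fl (Fk k) (Ik k) Λ) → Conv l Fk F (univ ×ˢ I) →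
  (∀ p ∈ F.M, p.2 ∈ I) →
  Fl F I Λ ∧ (∀ G, (∀ᶠ k in l, LGB (Fk k) G) → LGB F G) ∧
  ∀ (tk : α → ℝ) (yk : α → E) (sk : α → ℝ) (t : ℝ) (y : E) (s : ℝ), t ∈ I → 0 < s →
    Tendsto tk l (𝓝 t) → Tendsto yk l (𝓝 y) → Tendsto sk l (𝓝 s) →
    Tendsto (fun k => (Fk k).Fs (tk k) (yk k) (sk k)) l (𝓝 (F.Fs t y s))

/-- equality in the monotonicity formula: self-similar flows -/
def SelfSimS : Prop := ∀ F : Mv, F.IsMCF → (∀ p ∈ F.M, p.2 < 0) → F.Proper (univ ×ˢ Iio 0) →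
  (∀ p ∈ F.M, F.dev 0 p = 0) →
  (F.freeze (-1)).IsShr ∧ F.M = (F.freeze (-1)).unresc.M ∧
    ∀ p ∈ F.M, F.n p = (F.freeze (-1)).unresc.n p

/-- White's local regularity theorem -/
def WhiteS : Prop := ∀ Λ : ℝ, ∃ ε c : ℝ, 0 < ε ∧ 0 < c ∧ ∀ (F : Mv) (a b : ℝ) (X : ST) (r : ℝ),
  Fl F (Ioo a b) Λ → 0 < r → a < X.2 - 2 * r ^ 2 → X.2 ≤ b →
  (∀ Y ∈ PC X r, F.Fg Y r ≤ 1 + ε) → ∀ p ∈ F.M ∩ PC X (r / 2), F.Reach p (c * r)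




end Crest.Agent.N250

end
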