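import Crest.Agent.N250.T.Reach
import Crest.Agent.N250.FV.Ch
import Crest.Agent.N250.Cv.Jet

-- ▼ part N250/T/Reach2
section

/-!
# Row 250 (helper15): reach, part 2 — `ConvReachS`
-/

set_option autoImplicit false
open MeasureTheory Set Filter Topology
open scoped ContDiff InnerProductSpace
open Crest.GeometryTopology.MCF

noncomputable section

namespace Crest.Agent.N250.Rch

open Tr

variable {α : Type} {l : Filter α} {Fk : α → Mv} {F : Mv} {Ω W : Set ST} {φ : ST → ℝ}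
  {φk : α → ST → ℝ} {pk : α → ST} {p : ST}

theorem conv_mono {l' : Filter α} (h : Conv l Fk F Ω) (hl : l' ≤ l) : Conv l' Fk F Ω where
  away p hp hM := let ⟨U, hU, h1⟩ := h.away p hp hM; ⟨U, hU, hl h1⟩
  near p hp hM := by
    obtain ⟨W, φ, φk, h1, h2, h3, h4⟩ := h.near p hp hM
    refine ⟨W, φ, φk, h1, h2, hl h3, fun m u hu x hx => ?_⟩
    obtain ⟨t, ht, h5⟩ := h4 m u hu x hx
    exact ⟨t, ht, hl h5⟩

theorem conv_mem [l.NeBot] (h : Conv l Fk F Ω) (hp : p ∈ Ω) (ht : Tendsto pk l (𝓝 p))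
    (hM : ∀ᶠ k in l, pk k ∈ (Fk k).M) : p ∈ F.M := by
  by_contra hn
  obtain ⟨U, hU, h1⟩ := h.away p hp hn
  obtain ⟨k, a, b, c⟩ := (h1.and (hM.and (ht hU))).exists
  exact Set.disjoint_left.1 a c b

theorem jet_tendsto (h : F.Loc W φ) (hp : p ∈ W) {m : ℕ}
    (hc : TendstoLocallyUniformlyOn (fun k => iteratedFDeriv ℝ m (φk k)) (iteratedFDeriv ℝ m φ) l W)
    (ht : Tendsto pk l (𝓝 p)) (v : Fin m → ST) :
    Tendsto (fun k => iteratedFDeriv ℝ m (φk k) (pk k) v) l (𝓝 (iteratedFDeriv ℝ m φ p v)) := by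
  have h1 : ContinuousAt (iteratedFDeriv ℝ m φ) p :=
    ((contDiffAt_infty.1 (loc_at h hp) m).iteratedFDeriv_right (m := 0) (i := m)
      (by simp)).continuousAt
  have h2 := hc.tendsto_comp h1.continuousWithinAt hp
    (by rwa [nhdsWithin_eq_nhds.2 (h.isOpen.mem_nhds hp)])
  exact ((ContinuousMultilinearMap.apply ℝ (fun _ : Fin m => ST) ℝ v).continuous.tendsto _).comp h2

theorem grad_tendsto (h : F.Loc W φ) (hp : p ∈ W) (hk : ∀ᶠ k in l, (Fk k).Loc W (φk k))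
    (hc : TendstoLocallyUniformlyOn (fun k => iteratedFDeriv ℝ 1 (φk k)) (iteratedFDeriv ℝ 1 φ) l W)
    (ht : Tendsto pk l (𝓝 p)) :
    Tendsto (fun k => gradX (φk k) (pk k).1 (pk k).2) l (𝓝 (gradX φ p.1 p.2)) := by
  have e : ∀ {G : Mv} {ψ : ST → ℝ} {q : ST}, G.Loc W ψ → q ∈ W → gradX ψ q.1 q.2 =
      ∑ a, iteratedFDeriv ℝ 1 ψ q (fun _ => (ee a, 0)) • ee a := by
    intro G ψ q hG hq
    simp only [iteratedFDeriv_one_apply, fd_sp (loc_diff hG hq)]
    ext i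
    simp [ee, Fin.sum_univ_three, EuclideanSpace.inner_single_right]
    fin_cases i <;> simp
  rw [e h hp]
  refine (tendsto_finsetSum _ fun a _ => (jet_tendsto h hp hc ht _).smul_const (ee a)).congr' ?_
  filter_upwards [hk, ht (h.isOpen.mem_nhds hp)] with k a b using (e a b).symm

theorem n_tendsto (h : F.Loc W φ) (hp : p ∈ W) (hM : p ∈ F.M)
    (hk : ∀ᶠ k in l, (Fk k).Loc W (φk k))
    (hc : TendstoLocallyUniformlyOn (fun k => iteratedFDeriv ℝ 1 (φk k)) (iteratedFDeriv ℝ 1 φ) l W)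
    (ht : Tendsto pk l (𝓝 p)) (hMk : ∀ᶠ k in l, pk k ∈ (Fk k).M) :
    Tendsto (fun k => (Fk k).n (pk k)) l (𝓝 (F.n p)) := by
  have h1 := grad_tendsto h hp hk hc ht
  rw [h.n_eq p hp hM]
  refine ((h1.norm.inv₀ (norm_ne_zero_iff.2 (h.ne p hp))).smul h1).congr' ?_
  filter_upwards [hk, ht (h.isOpen.mem_nhds hp), hMk] with k a b c using (a.n_eq _ b c).symm

/-- points of the limit are approximated in the slices -/
theorem approx (h : Conv l Fk F Ω) (hp : p ∈ Ω) (hM : p ∈ F.M) {tk : α → ℝ}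
    (ht : Tendsto tk l (𝓝 p.2)) {U : Set E} (hU : U ∈ 𝓝 p.1) :
    ∀ᶠ k in l, ∃ y ∈ U, y ∈ (Fk k).sl (tk k) := by
  obtain ⟨W, φ, φk, hW, hL, hk, hc⟩ := h.near p hp hM
  obtain ⟨δ, hδ, hb⟩ := Metric.mem_nhds_iff.1
    (inter_mem (hL.isOpen.mem_nhds hW) (continuous_fst.continuousAt.preimage_mem_nhds hU))
  have hn := loc_unit hL hW hM
  have hd : HasDerivAt (fun s : ℝ => φ (p + s • ((F.n p, 0) : ST))) ‖gradX φ p.1 p.2‖ 0 := by
    have a1 : HasDerivAt (fun s : ℝ => p + s • ((F.n p, 0) : ST)) (F.n p, 0) 0 := by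
      simpa using ((hasDerivAt_id (0 : ℝ)).smul_const ((F.n p, 0) : ST)).const_add p
    have a2 := (loc_diff hL hW).hasFDerivAt.comp_hasDerivAt_of_eq (0 : ℝ) a1 (by simp)
    rwa [loc_fd hL hW hM, real_inner_self_eq_norm_sq, hn, one_pow, mul_one] at a2
  have hc0 := norm_pos_iff.2 (hL.ne p hW)
  have h0 : φ p = 0 := (hL.mem p hW).1 hM
  have e1 := (hasDerivAt_iff_tendsto_slope_zero.1 hd).eventually (lt_mem_nhds hc0)
  simp only [zero_add, zero_smul, add_zero, h0, sub_zero, smul_eq_mul] at e1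
  obtain ⟨η, hη, e2⟩ := Metric.eventually_nhds_iff.1 (eventually_nhdsWithin_iff.1 e1)
  set s := min η δ / 2 with hs
  have hs0 : 0 < s := half_pos (lt_min hη hδ)
  have hs1 : s < η := (half_lt_self (lt_min hη hδ)).trans_le (min_le_left _ _)
  have hs2 : s < δ := (half_lt_self (lt_min hη hδ)).trans_le (min_le_right _ _)
  have hball : ∀ σ t, |σ| ≤ s → dist t p.2 < δ → ((p.1 + σ • F.n p, t) : ST) ∈ Metric.ball p δ := by
    intro σ t a b
    rw [Metric.mem_ball, Prod.dist_eq]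
    refine max_lt ?_ b
    simp only [dist_self_add_left, norm_smul, hn, Real.norm_eq_abs, mul_one]
    exact a.trans_lt hs2
  have hval : ∀ σ, |σ| ≤ s → Tendsto (fun k => φk k (p.1 + σ • F.n p, tk k)) l
      (𝓝 (φ (p + σ • ((F.n p, 0) : ST)))) := by
    intro σ a
    have := jet_tendsto hL (hb (hball σ p.2 a (by simpa))).1 (hc 0)
      (tendsto_const_nhds.prodMk_nhds ht) 0
    simp only [iteratedFDeriv_zero_apply] at this
    convert this using 3
    exact Prod.ext rfl (by simp)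
  have p1 : 0 < φ (p + s • ((F.n p, 0) : ST)) :=
    (pos_iff_pos_of_mul_pos (e2 (y := s) (by simpa [abs_of_pos hs0]) hs0.ne')).1 (inv_pos.2 hs0)
  have p2 : φ (p + (-s) • ((F.n p, 0) : ST)) < 0 :=
    (neg_iff_neg_of_mul_pos (e2 (y := -s) (by simpa [abs_of_pos hs0])
      (neg_ne_zero.2 hs0.ne'))).1 (inv_lt_zero.2 (neg_neg_of_pos hs0))
  filter_upwards [hk, (hval s (abs_of_pos hs0).le).eventually (lt_mem_nhds p1),
    (hval (-s) (by simp [abs_of_pos hs0])).eventually (gt_mem_nhds p2),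
    Metric.tendsto_nhds.1 ht δ hδ] with k a1 a2 a3 a4
  have hcont : ContinuousOn (fun σ : ℝ => φk k (p.1 + σ • F.n p, tk k)) (Icc (-s) s) :=
    fun σ hσ => (ContinuousAt.comp (g := φk k)
      (f := fun σ : ℝ => ((p.1 + σ • F.n p, tk k) : ST))
      (loc_diff a1 (hb (hball σ _ (abs_le.2 hσ) a4)).1).continuousAt
      (by fun_prop)).continuousWithinAt
  obtain ⟨σ, hσ, hz⟩ := intermediate_value_Icc (by linarith : -s ≤ s) hcont
    (show (0 : ℝ) ∈ _ from ⟨a3.le, a2.le⟩)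
  have := hb (hball σ _ (abs_le.2 hσ) a4)
  exact ⟨_, this.2, (a1.mem _ this.1).2 hz⟩

/-- uniform Taylor formula along the sequence -/
theorem taylor_ev (h : F.Loc W φ) (hp : p ∈ W) (hk : ∀ᶠ k in l, (Fk k).Loc W (φk k))
    (hc : TendstoLocallyUniformlyOn (fun k => iteratedFDeriv ℝ 2 (φk k)) (iteratedFDeriv ℝ 2 φ) l W)
    {ε : ℝ} (hε : 0 < ε) : ∃ δ, 0 < δ ∧ Metric.ball p δ ⊆ W ∧ ∀ᶠ k in l,
      ∀ q ∈ Metric.ball p δ, ∀ q' ∈ Metric.ball p δ, |φk k q' - φk k q - fderiv ℝ (φk k) q (q' - q) -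
        fderiv ℝ (fderiv ℝ φ) p (q' - q) (q' - q) / 2| ≤ ε * ‖q' - q‖ ^ 2 := by
  obtain ⟨δ, hδ, hb⟩ := exists_ball (loc_two h hp) (half_pos hε)
  obtain ⟨T, hT, h1⟩ := Metric.tendstoLocallyUniformlyOn_iff.1 hc _ (half_pos hε) p hp
  rw [nhdsWithin_eq_nhds.2 (h.isOpen.mem_nhds hp)] at hT
  obtain ⟨δ', hδ', hb'⟩ := Metric.mem_nhds_iff.1
    (inter_mem (inter_mem hT (h.isOpen.mem_nhds hp)) (Metric.ball_mem_nhds p hδ))
  refine ⟨δ', hδ', fun z hz => (hb' hz).1.2, ?_⟩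
  filter_upwards [hk, h1] with k a1 a2 q hq q' hq'
  refine taylor2 (convex_ball p δ') (fun z hz => loc_two a1 (hb' hz).1.2) hε.le
    (fun z hz => ml_le ?_) hq hq'
  have b1 := a2 z (hb' hz).1.1
  have b2 := (hb z (hb' hz).2).2
  have b3 := dist_triangle_left (iteratedFDeriv ℝ 2 (φk k) z) (iteratedFDeriv ℝ 2 φ p)
    (iteratedFDeriv ℝ 2 φ z)
  linarith

/-- no short chords violate the reach -/
theorem short {l : Ultrafilter α} (h : F.Loc W φ) (hp : p ∈ W) (hM : p ∈ F.M)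
    (hk : ∀ᶠ k in l, (Fk k).Loc W (φk k))
    (hc : ∀ m : ℕ, TendstoLocallyUniformlyOn (fun k => iteratedFDeriv ℝ m (φk k))
      (iteratedFDeriv ℝ m φ) l W)
    (ht : Tendsto pk l (𝓝 p)) (hMk : ∀ᶠ k in l, pk k ∈ (Fk k).M) {ρ ρ' : ℝ} (h0 : 0 < ρ')
    (hlt : ρ' < ρ) (hR : F.Reach p ρ) {yk : α → E} (hy : Tendsto yk l (𝓝 p.1))
    (hyk : ∀ᶠ k in l, yk k ∈ (Fk k).sl (pk k).2 ∧
      ‖yk k - (pk k).1‖ ^ 2 < 2 * ρ' * |⟪(Fk k).n (pk k), yk k - (pk k).1⟫_ℝ|) : False := by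
  set B := fderiv ℝ (fderiv ℝ φ) p with hB
  set c := ‖gradX φ p.1 p.2‖ with hc'
  have hc0 : 0 < c := norm_pos_iff.2 (h.ne p hp)
  have tn := n_tendsto h hp hM hk (hc 1) ht hMk
  have tc := (grad_tendsto h hp hk (hc 1) ht).norm
  set sk : α → ℝ := fun k => ‖yk k - (pk k).1‖ with hsk
  set uk : α → E := fun k => (sk k)⁻¹ • (yk k - (pk k).1) with huk
  have ts : Tendsto sk l (𝓝 0) := by
    simpa using (hy.sub ((continuous_fst.tendsto p).comp ht)).norm
  have hs0 : ∀ᶠ k in l, 0 < sk k := by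
    filter_upwards [hyk] with k a
    refine norm_pos_iff.2 fun e => ?_
    simp [e] at a
  have hu1 : ∀ᶠ k in l, uk k ∈ Metric.sphere (0 : E) 1 := by
    filter_upwards [hs0] with k a
    rw [mem_sphere_zero_iff_norm, huk, norm_smul, norm_inv, Real.norm_of_nonneg a.le]
    exact inv_mul_cancel₀ a.ne'
  obtain ⟨u, hu, tu⟩ := (isCompact_sphere (0 : E) 1).ultrafilter_le_nhds' (l.map uk) hu1
  have tu : Tendsto uk l (𝓝 u) := tu
  rw [mem_sphere_zero_iff_norm] at hu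
  have hsu : ∀ᶠ k in l, yk k - (pk k).1 = sk k • uk k := by
    filter_upwards [hs0] with k a
    rw [huk, smul_smul, mul_inv_cancel₀ a.ne', one_smul]
  set qk : α → ℝ := fun k => ⟪(Fk k).n (pk k), uk k⟫_ℝ / sk k with hqk
  have tB : Tendsto (fun k => B (uk k, 0) (uk k, 0) / 2) l (𝓝 (B (u, 0) (u, 0) / 2)) := by
    have : Continuous fun w : E => B (w, 0) (w, 0) / 2 := by fun_prop
    exact (this.tendsto u).comp tu
  have tq : Tendsto (fun k => ‖gradX (φk k) (pk k).1 (pk k).2‖ * qk k +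
      B (uk k, 0) (uk k, 0) / 2) l (𝓝 0) := by
    rw [Metric.tendsto_nhds]
    intro ε hε
    obtain ⟨δ, hδ, hb, he⟩ := taylor_ev h hp hk (hc 2) (half_pos hε)
    have ty : Tendsto (fun k => ((yk k, (pk k).2) : ST)) l (𝓝 p) :=
      hy.prodMk_nhds ((continuous_snd.tendsto p).comp ht)
    filter_upwards [he, ht (Metric.ball_mem_nhds p hδ), ty (Metric.ball_mem_nhds p hδ), hk, hMk,
      hyk, hs0, hsu] with k a1 a2 a3 a4 a5 a6 a7 a8
    have b1 := a1 _ a2 _ a3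
    have e1 : ((yk k, (pk k).2) : ST) - pk k = sk k • ((uk k, 0) : ST) :=
      Prod.ext a8 (by simp)
    have e2 : ‖((yk k, (pk k).2) : ST) - pk k‖ = sk k := by
      rw [show ((yk k, (pk k).2) : ST) - pk k = (yk k - (pk k).1, 0) from
        Prod.ext rfl (sub_self _)]
      simp [hsk]
    rw [e2, e1, (a4.mem _ (hb a3)).1 a6.1, (a4.mem _ (hb a2)).1 a5] at b1
    simp only [map_smul, smul_apply, smul_eq_mul, loc_fd a4 (hb a2) a5] at b1
    rw [Real.dist_eq, sub_zero]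
    have e3 : ‖gradX (φk k) (pk k).1 (pk k).2‖ * qk k + B (uk k, 0) (uk k, 0) / 2 =
        -(0 - 0 - sk k * (‖gradX (φk k) (pk k).1 (pk k).2‖ * ⟪(Fk k).n (pk k), uk k⟫_ℝ) -
          sk k * (sk k * B (uk k, 0) (uk k, 0)) / 2) / sk k ^ 2 := by
      simp only [hqk]
      field_simp
      ring
    rw [e3, abs_div, abs_neg, abs_of_pos (pow_pos a7 2), div_lt_iff₀ (pow_pos a7 2)]
    exact b1.trans_lt (mul_lt_mul_of_pos_right (half_lt_self hε) (pow_pos a7 2))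
  have tq' : Tendsto qk l (𝓝 (-(B (u, 0) (u, 0) / 2) / c)) := by
    have := (tq.sub tB).div tc hc0.ne'
    rw [zero_sub] at this
    refine this.congr' ?_
    filter_upwards [tc.eventually (lt_mem_nhds hc0)] with k a
    simp only [Pi.div_apply, add_sub_cancel_right]
    exact mul_div_cancel_left₀ _ a.ne'
  have hnu : ⟪F.n p, u⟫_ℝ = 0 := by
    have a1 := tq'.mul ts
    rw [mul_zero] at a1
    refine tendsto_nhds_unique (tn.inner tu) (a1.congr' ?_)
    filter_upwards [hs0] with k a using div_mul_cancel₀ _ a.ne'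
  have h1 : 1 ≤ 2 * ρ' * |-(B (u, 0) (u, 0) / 2) / c| := by
    refine ge_of_tendsto (tq'.abs.const_mul (2 * ρ')) ?_
    filter_upwards [hyk, hs0, hsu] with k a1 a2 a3
    have a4 := a1.2
    change sk k ^ 2 < _ at a4
    rw [a3, inner_smul_right, abs_mul, abs_of_pos a2] at a4
    simp only [hqk]
    rw [abs_div, abs_of_pos a2, ← mul_div_assoc, le_div_iff₀ a2]
    nlinarith
  have h2 := hess_le h hp hM (h0.trans hlt) hR hnu
  rw [hu, one_pow, mul_one, le_div_iff₀ (h0.trans hlt)] at h2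
  rw [abs_div, abs_neg, abs_div, abs_of_pos hc0, abs_two, ← mul_div_assoc, le_div_iff₀ hc0] at h1
  have h3 : 0 < |B (u, 0) (u, 0)| := by
    by_contra h4
    nlinarith
  nlinarith

end Crest.Agent.N250.Rch

namespace Crest.Agent.N250

open Rch Tr

theorem convReachS_holds : ConvReachS := by
  intro α l _ Fk F Ω _ h pk p ρ hρ ht hMk hΩ
  have hp : p ∈ Ω := hΩ ⟨Metric.mem_closedBall_self (by positivity), rfl⟩
  have hM := conv_mem h hp ht hMk
  obtain ⟨W, φ, φk, hW, hL, hk, hc⟩ := h.near p hp hM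
  have hn := loc_unit hL hW hM
  have tn := n_tendsto hL hW hM hk (hc 1) ht hMk
  have tx : Tendsto (fun k => (pk k).1) l (𝓝 p.1) := (continuous_fst.tendsto p).comp ht
  have tt : Tendsto (fun k => (pk k).2) l (𝓝 p.2) := (continuous_snd.tendsto p).comp ht
  have hnk : ∀ᶠ k in l, ‖(Fk k).n (pk k)‖ = 1 := by
    filter_upwards [hk, hMk, ht (hL.isOpen.mem_nhds hW)] with k a b c using loc_unit a c b
  refine ⟨fun hR => (reach_iff hn hρ).2 fun y hy => ?_, fun hR ρ' hlt => ?_⟩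
  · rcases le_or_gt (2 * ρ) ‖y - p.1‖ with hfar | hnear
    · exact far_ok hn hρ hfar
    by_contra hcon
    have t1 : Tendsto (fun z : E × α => ‖z.1 - (pk z.2).1‖ ^ 2 -
        2 * ρ * |⟪(Fk z.2).n (pk z.2), z.1 - (pk z.2).1⟫_ℝ|) (𝓝 y ×ˢ l)
        (𝓝 (‖y - p.1‖ ^ 2 - 2 * ρ * |⟪F.n p, y - p.1⟫_ℝ|)) := by
      have a1 : Tendsto (fun z : E × α => z.1 - (pk z.2).1) (𝓝 y ×ˢ l) (𝓝 (y - p.1)) :=
        tendsto_fst.sub (tx.comp tendsto_snd)
      exact (a1.norm.pow 2).sub (((tn.comp tendsto_snd).inner a1).abs.const_mul _)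
    obtain ⟨pa, ha, pb, hb, hab⟩ := eventually_prod_iff.1
      (t1.eventually (gt_mem_nhds (sub_neg.2 (not_le.1 hcon))))
    have hyΩ : ((y, p.2) : ST) ∈ Ω := hΩ ⟨by rw [mem_closedBall_iff_norm]; exact hnear.le, rfl⟩
    obtain ⟨k, ⟨y', a1, a2⟩, a3, a4, a5⟩ :=
      ((approx h hyΩ hy tt ha).and (hb.and (hR.and hnk))).exists
    have := (reach_iff a5 hρ).1 a4 y' a2
    have := hab a1 a3
    simp only at this
    linarith
  · rcases le_or_gt ρ' 0 with h0 | h0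
    · exact Eventually.of_forall fun k => reach_nonpos _ _ h0
    refine (mem_iff_ultrafilter).2 fun u hu => ?_
    by_contra hcon
    have e1 : ∀ᶠ k in u, ∃ y, y ∈ (Fk k).sl (pk k).2 ∧
        ‖y - (pk k).1‖ ^ 2 < 2 * ρ' * |⟪(Fk k).n (pk k), y - (pk k).1⟫_ℝ| := by
      filter_upwards [Ultrafilter.compl_mem_iff_notMem.2 hcon, hu hnk] with k a b
      have a : ¬(Fk k).Reach (pk k) ρ' := a
      rw [reach_iff b h0] at a
      push Not at a
      exact a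
    obtain ⟨yk, e2⟩ := e1.choice
    have e3 : ∀ᶠ k in u, yk k ∈ Metric.closedBall p.1 (2 * ρ) := by
      filter_upwards [e2, hu hnk, hu (Metric.tendsto_nhds.1 tx (2 * ρ - 2 * ρ') (by linarith))]
        with k a b c
      have d : ‖yk k - (pk k).1‖ < 2 * ρ' := not_le.1 fun e => (far_ok b h0 e).not_gt a.2
      have := dist_triangle (yk k) (pk k).1 p.1
      rw [dist_eq_norm (yk k) (pk k).1] at this
      have c : dist (pk k).1 p.1 < 2 * ρ - 2 * ρ' := c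
      rw [Metric.mem_closedBall]
      linarith
    obtain ⟨y, hy, ty⟩ := (isCompact_closedBall p.1 (2 * ρ)).ultrafilter_le_nhds' (u.map yk) e3
    have ty : Tendsto yk u (𝓝 y) := ty
    have h' := conv_mono h hu
    by_cases hyx : y = p.1
    · obtain ⟨W', φ', φk', hW', hL', hk', hc'⟩ := h'.near p hp hM
      exact short hL' hW' hM hk' hc' (ht.mono_left hu) (hu hMk) h0 hlt hR (hyx ▸ ty) e2
    have hyM : ((y, p.2) : ST) ∈ F.M := conv_mem h' (hΩ ⟨hy, rfl⟩)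
      (ty.prodMk_nhds (tt.mono_left hu)) (e2.mono fun k a => a.1)
    have a1 := ty.sub (tx.mono_left hu)
    have a2 : ‖y - p.1‖ ^ 2 ≤ 2 * ρ' * |⟪F.n p, y - p.1⟫_ℝ| :=
      le_of_tendsto_of_tendsto (a1.norm.pow 2) (((tn.mono_left hu).inner a1).abs.const_mul _)
        (e2.mono fun k a => a.2.le)
    have a3 := (reach_iff hn hρ).1 hR y hyM
    have a4 := pow_pos (norm_pos_iff.2 (sub_ne_zero.2 hyx)) 2
    have a5 : 0 < |⟪F.n p, y - p.1⟫_ℝ| := by
      by_contra h4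
      nlinarith
    nlinarith

end Crest.Agent.N250

end
end

-- ▼ part N250/T/CMu0
section

/-!
# Row 250 (helper13): graph charts over a fixed box, uniformly for nearby defining functions
-/

set_option autoImplicit false
open MeasureTheory Set Filter Topology Function Metric
open scoped ContDiff InnerProductSpace
open Crest.GeometryTopology.MCF
open ContinuousLinearMap (adjoint inl)

noncomputable section

namespace Crest.Agent.N250.CMu

open Tr FV Cv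

/-- a unit vector and an isometric parametrisation of its orthogonal plane -/
structure Fr where
  ν : E
  Li : E2 →ₗᵢ[ℝ] E
  unit : ‖ν‖ = 1
  perp : ∀ v, ⟪ν, v⟫_ℝ = 0 ↔ v ∈ range Li

namespace Fr

variable (f : Fr)

/-- the projection -/
def L : E →L[ℝ] E2 := adjoint f.Li.toContinuousLinearMap

theorem L_Li (z : E2) : f.L (f.Li z) = z := N222.adjoint_isometry_apply f.Li z

theorem ν_Li (z : E2) : ⟪f.ν, f.Li z⟫_ℝ = 0 := (f.perp _).2 ⟨z, rfl⟩

theorem ν_ν : ⟪f.ν, f.ν⟫_ℝ = 1 := by rw [real_inner_self_eq_norm_sq, f.unit]; norm_num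

theorem L_ν : f.L f.ν = 0 := by
  apply ext_inner_right ℝ
  intro v
  rw [L, ContinuousLinearMap.adjoint_inner_left, inner_zero_left]
  exact f.ν_Li v

theorem dec (x : E) : f.Li (f.L x) + ⟪f.ν, x⟫_ℝ • f.ν = x := by
  obtain ⟨u, hu⟩ := (f.perp (x - ⟪f.ν, x⟫_ℝ • f.ν)).1
    (by rw [inner_sub_right, inner_smul_right, f.ν_ν]; ring)
  have := congrArg f.L hu
  rw [f.L_Li, map_sub, map_smul, f.L_ν, smul_zero, sub_zero] at this
  rw [← this, hu]; simp

/-- the line through the parameter `q` -/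
def γ (p : ST) (q : E2 × ℝ) (s : ℝ) : ST := (p.1 + f.Li (q.1 - f.L p.1) + s • f.ν, q.2)

/-- height -/
def ht (p y : ST) : ℝ := ⟪f.ν, y.1 - p.1⟫_ℝ

/-- parameter -/
def pr (y : ST) : E2 × ℝ := (f.L y.1, y.2)

theorem cont_pr : Continuous f.pr := by unfold pr; fun_prop

theorem cont_ht (p : ST) : Continuous (f.ht p) := by unfold ht; fun_prop

theorem pr_γ (p : ST) (q : E2 × ℝ) (s : ℝ) : f.pr (f.γ p q s) = q := by
  simp [pr, γ, f.L_Li, f.L_ν]

theorem ht_γ (p : ST) (q : E2 × ℝ) (s : ℝ) : f.ht p (f.γ p q s) = s := by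
  have : (f.γ p q s).1 - p.1 = f.Li (q.1 - f.L p.1) + s • f.ν := by simp only [γ]; abel
  rw [ht, this, inner_add_right, f.ν_Li, inner_smul_right, f.ν_ν]; ring

theorem γ_pr (p y : ST) : f.γ p (f.pr y) (f.ht p y) = y := by
  refine Prod.ext ?_ rfl
  have := f.dec (y.1 - p.1)
  simp only [γ, pr, ht]
  rw [← map_sub f.L, add_assoc, this]; simp

theorem dist_γ (p : ST) (q : E2 × ℝ) (s : ℝ) :
    dist (f.γ p q s) (p.1 + s • f.ν, p.2) = dist q (f.pr p) := by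
  have : (f.γ p q s).1 - (p.1 + s • f.ν) = f.Li (q.1 - f.L p.1) := by simp only [γ]; abel
  rw [Prod.dist_eq, Prod.dist_eq, dist_eq_norm, this, f.Li.norm_map, ← dist_eq_norm]
  rfl

theorem dist_ax (p : ST) (s : ℝ) : dist ((p.1 + s • f.ν, p.2) : ST) p = |s| := by
  rw [Prod.dist_eq, dist_eq_norm]
  simp [norm_smul, f.unit]

theorem γ_mem {p : ST} {q : E2 × ℝ} {s r η δ : ℝ} (hr : δ + η ≤ r) (hq : q ∈ ball (f.pr p) δ)
    (hs : |s| ≤ η) : f.γ p q s ∈ closedBall p r := by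
  have := dist_triangle (f.γ p q s) (p.1 + s • f.ν, p.2) p
  rw [f.dist_γ, f.dist_ax] at this
  exact this.trans (by linarith [mem_ball.1 hq])

theorem hasD (p : ST) (q : E2 × ℝ) (s : ℝ) : HasDerivAt (f.γ p q) (f.ν, 0) s := by
  have := (((hasDerivAt_id s).smul_const f.ν).const_add
    (p.1 + f.Li (q.1 - f.L p.1))).prodMk (hasDerivAt_const s q.2)
  rw [one_smul] at this
  exact this

/-- the box -/
def box (p : ST) (η δ : ℝ) : Set ST := {y | f.pr y ∈ ball (f.pr p) δ ∧ |f.ht p y| < η}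

theorem open_box (p : ST) (η δ : ℝ) : IsOpen (f.box p η δ) :=
  (isOpen_ball.preimage f.cont_pr).inter (isOpen_lt (f.cont_ht p).abs continuous_const)

theorem box_sub {p : ST} {r η δ : ℝ} (hr : δ + η ≤ r) : f.box p η δ ⊆ closedBall p r :=
  fun y hy => f.γ_pr p y ▸ f.γ_mem hr hy.1 hy.2.le

/-- the differential of a graph with normal direction `w` -/
def JJ (w : E) : E2 →L[ℝ] E :=
  f.Li.toContinuousLinearMap - (⟪w, f.ν⟫_ℝ)⁻¹ • (innerSL ℝ (f.L w)).smulRight f.ν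

theorem cont_JJ {w : E} (hw : ⟪w, f.ν⟫_ℝ ≠ 0) : ContinuousAt f.JJ w := by
  have h1 : ContinuousAt (fun w : E => (⟪w, f.ν⟫_ℝ)⁻¹) w := ContinuousAt.inv₀ (by fun_prop) hw
  have h2 : Continuous fun w : E => (innerSL ℝ (f.L w)).smulRight f.ν :=
    ((ContinuousLinearMap.smulRightL ℝ E2 E).flip f.ν).continuous.comp
      ((innerSL ℝ).continuous.comp f.L.continuous)
  exact continuousAt_const.sub (h1.smul h2.continuousAt)

end Fr

theorem gr_inner (φ : ST → ℝ) (q : ST) (v : E) : ⟪gr φ q, v⟫_ℝ = fderiv ℝ φ q (v, 0) := by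
  simp [gr, InnerProductSpace.toDual_symm_apply]

/-- transversality and the signs at the top and the bottom of the box -/
structure Bx (f : Fr) (φ : ST → ℝ) (p : ST) (r η δ : ℝ) : Prop where
  pos : ∀ q ∈ closedBall p r, 0 < ⟪gr φ q, f.ν⟫_ℝ
  up : ∀ q ∈ ball ((p.1 + η • f.ν, p.2) : ST) δ, 0 < φ q
  dn : ∀ q ∈ ball ((p.1 + (-η) • f.ν, p.2) : ST) δ, φ q < 0

variable {F : Mv} {W : Set ST} {φ : ST → ℝ} {p : ST} {f : Fr} {r η δ : ℝ} {q : E2 × ℝ}

theorem mono_line (h : F.Loc W φ) (hB : closedBall p r ⊆ W)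
    (hpos : ∀ q ∈ closedBall p r, 0 < ⟪gr φ q, f.ν⟫_ℝ)
    (hq : ∀ s, |s| ≤ η → f.γ p q s ∈ closedBall p r) :
    ContinuousOn (fun s => φ (f.γ p q s)) (Icc (-η) η) ∧
      StrictMonoOn (fun s => φ (f.γ p q s)) (Icc (-η) η) := by
  have hd : ∀ s ∈ Icc (-η) η,
      HasDerivAt (fun s => φ (f.γ p q s)) ⟪gr φ (f.γ p q s), f.ν⟫_ℝ s := fun s hs => by
    rw [gr_inner]
    exact (loc_diff h (hB (hq s (abs_le.2 hs)))).hasFDerivAt.comp_hasDerivAt s (f.hasD p q s)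
  have hc : ContinuousOn (fun s => φ (f.γ p q s)) (Icc (-η) η) := fun s hs =>
    (hd s hs).continuousAt.continuousWithinAt
  refine ⟨hc, strictMonoOn_of_deriv_pos (convex_Icc _ _) hc fun s hs => ?_⟩
  have hs' := interior_subset hs
  rw [(hd s hs').deriv]
  exact hpos _ (hq s (abs_le.2 hs'))

theorem Bx.ne_end (b : Bx f φ p r η δ) {y : ST} (hy : f.pr y ∈ ball (f.pr p) δ)
    (h0 : φ y = 0) (h1 : |f.ht p y| ≤ η) : y ∈ f.box p η δ := by
  refine ⟨hy, abs_lt.2 ⟨(abs_le.1 h1).1.lt_of_ne fun e => ?_, (abs_le.1 h1).2.lt_of_ne fun e => ?_⟩⟩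
  · refine (b.dn y ?_).ne h0
    rw [← f.γ_pr p y, ← e, mem_ball, f.dist_γ]; exact hy
  · refine (b.up y ?_).ne' h0
    rw [← f.γ_pr p y, e, mem_ball, f.dist_γ]; exact hy

theorem exists_box_ch (h : F.Loc W φ) (hB : closedBall p r ⊆ W) (hr : δ + η ≤ r) (hη : 0 < η)
    (b : Bx f φ p r η δ) : ∃ X, Ch F X (ball (f.pr p) δ) (f.box p η δ) f.L := by
  have hm := fun q (hq : q ∈ ball (f.pr p) δ) =>
    mono_line h hB b.pos (q := q) (η := η) fun s hs => f.γ_mem hr hq hs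
  have hex : ∀ q, ∃ s, q ∈ ball (f.pr p) δ → |s| < η ∧ φ (f.γ p q s) = 0 := by
    intro q
    by_cases hq : q ∈ ball (f.pr p) δ
    · obtain ⟨s, hs, e⟩ := intermediate_value_Ioo (by linarith : -η ≤ η) (hm q hq).1
        (show (0 : ℝ) ∈ Ioo _ _ from ⟨b.dn _ (by rw [mem_ball, f.dist_γ]; exact hq),
          b.up _ (by rw [mem_ball, f.dist_γ]; exact hq)⟩)
      exact ⟨s, fun _ => ⟨abs_lt.2 hs, e⟩⟩
    · exact ⟨0, fun h => (hq h).elim⟩
  choose u hu using hex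
  have hW : f.box p η δ ⊆ W := (f.box_sub hr).trans hB
  have k1 : ∀ q ∈ ball (f.pr p) δ, f.γ p q (u q) ∈ f.box p η δ := fun q hq =>
    ⟨by rw [f.pr_γ]; exact hq, by rw [f.ht_γ]; exact (hu q hq).1⟩
  have k2 : ∀ y ∈ f.box p η δ, φ y = 0 → f.γ p (f.pr y) (u (f.pr y)) = y := fun y hy h0 => by
    have := (hm _ hy.1).2.injOn (abs_le.1 (hu _ hy.1).1.le) (abs_le.1 hy.2.le)
      (by rw [(hu _ hy.1).2, f.γ_pr, h0])
    rw [this, f.γ_pr]
  refine ⟨fun q => (f.γ p q (u q)).1, isOpen_ball, f.open_box _ _ _, fun q hq => ?_,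
    fun q hq => (h.mem _ (hW (k1 q hq))).2 (hu q hq).2, k1,
    fun q _ => congrArg Prod.fst (f.pr_γ p q (u q)), fun y _ hy => hy.1,
    fun y hM hy => congrArg Prod.fst (k2 y hy ((h.mem y (hW hy)).1 hM))⟩
  set y := f.γ p q (u q) with hy
  let T : ST →L[ℝ] E2 × ℝ := f.L.prodMap (ContinuousLinearMap.id ℝ ℝ)
  let Θ : ST → (E2 × ℝ) × ℝ := fun y => (T y, φ y)
  have hΘ : ContDiffOn ℝ ∞ Θ (f.box p η δ) := T.contDiff.contDiffOn.prodMk (h.sm.mono hW)
  have hd : fderiv ℝ Θ y = T.prod (fderiv ℝ φ y) :=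
    (T.hasFDerivAt.prodMk (loc_diff h (hW (k1 q hq))).hasFDerivAt).fderiv
  have hi : Injective (T.prod (fderiv ℝ φ y)) := by
    refine (injective_iff_map_eq_zero _).2 fun w hw => ?_
    obtain ⟨v, s⟩ := w
    simp only [ContinuousLinearMap.prod_apply, Prod.mk_eq_zero, T,
      ContinuousLinearMap.coe_prodMap', Prod.map_apply, ContinuousLinearMap.id_apply] at hw
    obtain ⟨⟨h1, rfl⟩, h3⟩ := hw
    have e := f.dec v
    rw [h1, map_zero, zero_add] at e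
    rw [← gr_inner, ← e, inner_smul_right] at h3
    have := (mul_eq_zero.1 h3).resolve_right (b.pos _ (f.box_sub hr (k1 q hq))).ne'
    rw [← e, this]; simp
  let e : ST ≃L[ℝ] (E2 × ℝ) × ℝ := (LinearMap.linearEquivOfInjective
    (T.prod (fderiv ℝ φ y) : ST →ₗ[ℝ] (E2 × ℝ) × ℝ) hi (by simp)).toContinuousLinearEquiv
  obtain ⟨G, h1, h2, h3, h4⟩ := exists_diffeo (f.open_box p η δ) hΘ (k1 q hq) e
    (by rw [hd]; ext <;> rfl)
  have hq0 : (q, (0 : ℝ)) ∈ G.target := by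
    have := G.map_source h1
    rwa [h3, show Θ y = (q, 0) from Prod.ext (f.pr_γ p q _) (hu q hq).2] at this
  have hn : ∀ᶠ z in 𝓝 q, (z, (0 : ℝ)) ∈ G.target :=
    (G.open_target.preimage (Continuous.prodMk_left _)).mem_nhds hq0
  have hs : ContDiffAt ℝ ∞ (fun z : E2 × ℝ => (G.symm (z, 0)).1) q :=
    ((h4.contDiffAt (G.open_target.mem_nhds hq0)).comp q
      (contDiffAt_id.prodMk contDiffAt_const)).fst
  refine (hs.congr_of_eventuallyEq (hn.mono fun z hz => ?_)).contDiffWithinAt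
  have e1 := G.right_inv hz
  rw [h3] at e1
  have e2 := k2 _ (h2 (G.map_target hz)) (congrArg Prod.snd e1)
  rw [show f.pr (G.symm (z, 0)) = z from congrArg Prod.fst e1] at e2
  exact congrArg Prod.fst e2

variable {X : E2 × ℝ → E} {U : Set (E2 × ℝ)} {W' : Set ST}

theorem Jz_eq (h : F.Loc W φ) (c : Ch F X U W' f.L) (hW : W' ⊆ W) (hq : q ∈ U)
    (h0 : ⟪gr φ (Ps X q), f.ν⟫_ℝ ≠ 0) : Jz X q = f.JJ (gr φ (Ps X q)) := by
  have h1 := (loc_diff h (hW (c.memW q hq))).hasFDerivAt.comp q (c.hasPs hq)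
  have h2 : HasFDerivAt (φ ∘ Ps X) (0 : E2 × ℝ →L[ℝ] ℝ) q :=
    (hasFDerivAt_const (0 : ℝ) q).congr_of_eventuallyEq
      ((c.oU.eventually_mem hq).mono fun y a => (h.mem _ (hW (c.memW y a))).1 (c.mem y a))
  ext1 v
  have h3 : fderiv ℝ φ (Ps X q) (Jz X q v, 0) = 0 :=
    congrArg (fun T : E2 × ℝ →L[ℝ] ℝ => T (v, 0)) (h1.unique h2)
  have e := f.dec (Jz X q v)
  rw [show f.L (Jz X q v) = v from c.L_fd hq (v, 0)] at e
  rw [← gr_inner, ← e, inner_add_right, inner_smul_right] at h3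
  have e3 : ⟪f.L (gr φ (Ps X q)), v⟫_ℝ = ⟪gr φ (Ps X q), f.Li v⟫_ℝ :=
    ContinuousLinearMap.adjoint_inner_left _ _ _
  have e4 : ⟪f.ν, Jz X q v⟫_ℝ = -((⟪gr φ (Ps X q), f.ν⟫_ℝ)⁻¹ * ⟪f.L (gr φ (Ps X q)), v⟫_ℝ) := by
    rw [e3]; field_simp; linarith
  rw [← e, e4]
  simp [Fr.JJ, smul_smul, sub_eq_add_neg]

end Crest.Agent.N250.CMu

end
end

-- ▼ part N250/T/CMu1
section

/-!
# Row 250 (helper13): convergence of integrals supported in one box
-/

set_option autoImplicit false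
open MeasureTheory Set Filter Topology Function Metric
open scoped ContDiff InnerProductSpace
open Crest.GeometryTopology.MCF

noncomputable section

namespace Crest.Agent.N250.CMu

open Tr FV Cv

/-- the space of first and second order data -/
abbrev Jt : Type := ST × E × (Fin 3 → Fin 3 → ℝ)

/-- the integrand of `ConvMuS` -/
def Gi (g : Jt → ℝ) (F : Mv) (t : ℝ) (x : E) : ℝ :=
  g ((x, t), F.n (x, t), fun a b => F.A a b (x, t))

/-- the ambient form of area density times integrand -/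
def Ga (f : Fr) (χ : E → ℝ) (g : Jt → ℝ) (φ : ST → ℝ) (y : ST) : ℝ :=
  N222.jac (f.JJ (gr φ y)) *
    (χ y.1 * g (y, aN φ y, fun a b => aDL φ [a] (fun q => aN φ q b) y))

theorem cont_jac : Continuous (N222.jac : (E2 →L[ℝ] E) → ℝ) :=
  Real.continuous_sqrt.comp (ContinuousLinearMap.continuous_det.comp
    ((ContinuousLinearMap.adjoint (𝕜 := ℝ) (E := E2) (F := E)).continuous.clm_comp continuous_id))

variable {α β : Type} {l : Filter α} {l' : Filter β} {f : Fr} {χ : E → ℝ} {g : Jt → ℝ}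
  {φ : ST → ℝ} {φk : α → ST → ℝ} {p : ST} {F : Mv} {Fk : α → Mv} {W : Set ST} {r η δ : ℝ}

theorem tend_Ga (hχ : Continuous χ) (hg : Continuous g) {pk : α → ST} (J : JC l φk pk φ p)
    (h0 : ⟪gr φ p, f.ν⟫_ℝ ≠ 0) :
    Tendsto (fun k => Ga f χ g (φk k) (pk k)) l (𝓝 (Ga f χ g φ p)) := by
  have h1 : gr φ p ≠ 0 := fun e => h0 (by rw [e, inner_zero_left])
  refine ((cont_jac.tendsto _).comp ((f.cont_JJ h0).tendsto.comp (jc_gr J).val)).mul
    (((hχ.comp continuous_fst).tendsto _ |>.comp J.pt).mul ((hg.tendsto _).comp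
      (J.pt.prodMk_nhds ((jc_aN J h1).val.prodMk_nhds ?_))))
  exact tendsto_pi_nhds.2 fun a => tendsto_pi_nhds.2 fun b =>
    (jc_aDL J h1 (jc_aNa J h1 b) [a]).val

theorem tendsto_int {D : Set E2} (hD : IsCompact D) {Ik : α → E2 → ℝ} {I : E2 → ℝ}
    (hk : ∀ᶠ k in l, ContinuousOn (Ik k) D) (hI : ContinuousOn I D)
    (h : ∀ z ∈ D, Tendsto (fun y : α × E2 => Ik y.1 y.2) (l ×ˢ 𝓝[D] z) (𝓝 (I z))) :
    Tendsto (fun k => ∫ z in D, Ik k z) l (𝓝 (∫ z in D, I z)) := by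
  have hu : TendstoUniformlyOn Ik I l D := by
    rw [← tendstoLocallyUniformlyOn_iff_tendstoUniformlyOn_of_compact hD,
      tendstoLocallyUniformlyOn_iff_forall_tendsto]
    intro z hz
    exact (Uniform.tendsto_nhds_left.1 ((hI z hz).tendsto.comp tendsto_snd)).uniformity_trans
      (Uniform.tendsto_nhds_right.1 (h z hz))
  refine Metric.tendsto_nhds.2 fun ε hε => ?_
  have hv : 0 ≤ volume.real D := measureReal_nonneg
  have hε' : 0 < ε / (volume.real D + 1) := by positivity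
  filter_upwards [hk, Metric.tendstoUniformlyOn_iff.1 hu _ hε'] with k a b
  rw [dist_eq_norm, ← integral_sub (a.integrableOn_compact hD) (hI.integrableOn_compact hD)]
  refine (norm_setIntegral_le_of_norm_le_const hD.measure_lt_top
    (C := ε / (volume.real D + 1)) fun z hz => ?_).trans_lt ?_
  · rw [← dist_eq_norm, dist_comm]; exact (b z hz).le
  · rw [div_mul_eq_mul_div, div_lt_iff₀ (by positivity)]; nlinarith

variable {X : E2 × ℝ → E}

theorem box_time {t : ℝ} (ht : dist t p.2 < δ) {x : E} (hx : (x, p.2) ∈ f.box p η δ) :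
    (x, t) ∈ f.box p η δ := by
  refine ⟨?_, hx.2⟩
  have := hx.1
  rw [mem_ball, Prod.dist_eq, max_lt_iff] at this ⊢
  exact ⟨this.1, ht⟩

theorem contOn_Ga (hχ : Continuous χ) (hg : Continuous g) (h : F.Loc W φ)
    (hB : closedBall p r ⊆ W) (hr : δ + η ≤ r) (b : Bx f φ p r η δ)
    (c : Ch F X (ball (f.pr p) δ) (f.box p η δ) f.L) (t : ℝ) :
    ContinuousOn (fun z => Ga f χ g φ (Ps X (z, t))) {z | (z, t) ∈ ball (f.pr p) δ} := by
  intro z hz
  have hy := f.box_sub hr (c.memW _ hz)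
  exact ContinuousAt.continuousWithinAt (tend_Ga hχ hg (JC.const (loc_at h (hB hy))
    ((c.hasPs hz).continuousAt.tendsto.comp ((Continuous.prodMk_left t).tendsto z)))
    (b.pos _ hy).ne')

theorem sub_Ut {t : ℝ} (ht : dist t p.2 < δ) {C : Set E} (hC : ∀ x ∈ C, (x, p.2) ∈ f.box p η δ) :
    f.L '' C ⊆ {z | (z, t) ∈ ball (f.pr p) δ} := by
  rintro _ ⟨x, hx, rfl⟩
  exact (box_time ht (hC x hx)).1

theorem int_box (hχ : Continuous χ) (hg : Continuous g) (h : F.Loc W φ)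
    (hB : closedBall p r ⊆ W) (hr : δ + η ≤ r) (b : Bx f φ p r η δ)
    (c : Ch F X (ball (f.pr p) δ) (f.box p η δ) f.L) {t : ℝ} (ht : dist t p.2 < δ) {C : Set E}
    (hc : IsCompact C) (hC : ∀ x ∈ C, (x, p.2) ∈ f.box p η δ) (h0 : ∀ x ∉ C, χ x = 0) :
    Integrable (fun x => χ x * Gi g F t x) (F.mu t) ∧
      ∫ x, χ x * Gi g F t x ∂F.mu t = ∫ z in f.L '' C, Ga f χ g φ (Ps X (z, t)) := by
  have hU := (c.oUt t).measurableSet
  have e1 : ∀ x ∉ {x | (x, t) ∈ f.box p η δ}, χ x * Gi g F t x = 0 := fun x hx => by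
    rw [h0 x fun hx' => hx (box_time ht (hC x hx')), zero_mul]
  have e2 : EqOn (fun z => rho X (z, t) * (χ (X (z, t)) * Gi g F t (X (z, t))))
      (fun z => Ga f χ g φ (Ps X (z, t))) {z | (z, t) ∈ ball (f.pr p) δ} := fun z hz => by
    have hy := f.box_sub hr (c.memW _ hz)
    have hM := c.mem _ hz
    simp only [Ga, Gi, rho]
    rw [Jz_eq h c ((f.box_sub hr).trans hB) hz (b.pos _ hy).ne', n_eq_aN h (hB hy) hM]
    congr 4
    refine Prod.ext rfl ?_
    funext a b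
    exact DL_nu_eq h [a] b (hB hy) hM
  have e3 : ∀ z ∈ {z | (z, t) ∈ ball (f.pr p) δ} \ f.L '' C, Ga f χ g φ (Ps X (z, t)) = 0 :=
    fun z hz => by
      have : χ (Ps X (z, t)).1 = 0 := h0 _ fun hx => hz.2 ⟨_, hx, c.left _ hz.1⟩
      rw [Ga, this, zero_mul, mul_zero]
  refine ⟨IntegrableOn.integrable_of_forall_notMem_eq_zero ((c.intg t _).2 ?_) e1, ?_⟩
  · exact (IntegrableOn.of_forall_sdiff_eq_zero (((contOn_Ga hχ hg h hB hr b c t).mono
      (sub_Ut ht hC)).integrableOn_compact (hc.image f.L.continuous)) hU e3).congr_fun e2.symm hU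
  · rw [← setIntegral_eq_integral_of_forall_compl_eq_zero e1, c.int, setIntegral_congr_fun hU e2,
      setIntegral_eq_of_subset_of_forall_sdiff_eq_zero hU (sub_Ut ht hC) e3]

theorem ev_ball {P : α → ST → Prop} (h : ∀ᶠ y in l ×ˢ 𝓝 p, P y.1 y.2) :
    ∃ ε > 0, ∀ᶠ k in l, ∀ q ∈ closedBall p ε, P k q := by
  obtain ⟨pa, ha, pb, hb, hab⟩ := eventually_prod_iff.1 h
  obtain ⟨ε, hε, hs⟩ := nhds_basis_closedBall.eventually_iff.1 hb
  exact ⟨ε, hε, ha.mono fun k a q hq => hab a (hs hq)⟩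

/-- the data of `Conv.near` -/
structure Nr (l : Filter α) (Fk : α → Mv) (F : Mv) (W : Set ST) (φk : α → ST → ℝ) (φ : ST → ℝ) :
    Prop where
  loc : F.Loc W φ
  lock : ∀ᶠ k in l, (Fk k).Loc W (φk k)
  tlu : ∀ m : ℕ, TendstoLocallyUniformlyOn (fun k => iteratedFDeriv ℝ m (φk k))
    (iteratedFDeriv ℝ m φ) l W

theorem Nr.jc (N : Nr l Fk F W φk φ) (hp : p ∈ W) {κ : β → α} (hκ : Tendsto κ l' l)
    {qk : β → ST} (hq : Tendsto qk l' (𝓝 p)) : JC l' (fun k => φk (κ k)) qk φ p :=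
  jc_prod_of_tlu N.loc.isOpen N.loc.sm (N.lock.mono fun _ a => a.sm) N.tlu hp hκ hq

theorem exists_setup [l.NeBot] (N : Nr l Fk F W φk φ) (hp : p ∈ W) (hM : p ∈ F.M) :
    ∃ (f : Fr) (r η δ : ℝ), 0 < η ∧ 0 < δ ∧ δ + η ≤ r ∧ closedBall p r ⊆ W ∧ Bx f φ p r η δ ∧
      ∀ᶠ k in l, Bx f (φk k) p r η δ := by
  have h := N.loc
  have hn : 0 < ‖gr φ p‖ := norm_pos_iff.2 (gr_ne h hp)
  have hu : ‖aN φ p‖ = 1 := by rw [aN, norm_smul, norm_inv, norm_norm, inv_mul_cancel₀ hn.ne']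
  obtain ⟨Li, hLi⟩ := exists_plane (g := aN φ p) (fun e => by simp [e] at hu)
  let f : Fr := ⟨aN φ p, Li, hu, hLi⟩
  have h1 : 0 < ⟪gr φ p, f.ν⟫_ℝ := by
    change 0 < ⟪gr φ p, ‖gr φ p‖⁻¹ • gr φ p⟫_ℝ
    rw [inner_smul_right, real_inner_self_eq_norm_sq]; positivity
  have J : ∀ q ∈ W, JC (l ×ˢ 𝓝 q) (fun y : α × ST => φk y.1) Prod.snd φ q := fun q hq =>
    N.jc hq tendsto_fst tendsto_snd
  have J0 : ∀ q ∈ W, JC (l ×ˢ 𝓝 q) (fun _ : α × ST => φ) Prod.snd φ q := fun q hq =>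
    JC.const (loc_at h hq) tendsto_snd
  obtain ⟨r, hr, hA⟩ := ev_ball (l := l) (p := p)
    (P := fun k q => 0 < ⟪gr (φk k) q, f.ν⟫_ℝ ∧ 0 < ⟪gr φ q, f.ν⟫_ℝ ∧ q ∈ W)
    ((((jc_gr (J p hp)).val.inner tendsto_const_nhds).eventually (lt_mem_nhds h1)).and
      ((((jc_gr (J0 p hp)).val.inner tendsto_const_nhds).eventually (lt_mem_nhds h1)).and
        (tendsto_snd.eventually (h.isOpen.mem_nhds hp))))
  obtain ⟨_, hA0⟩ := hA.exists
  have hB : closedBall p r ⊆ W := fun q hq => (hA0 q hq).2.2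
  have hγ : ∀ s, f.γ p (f.pr p) s = (p.1 + s • f.ν, p.2) := fun s => by simp [Fr.γ, Fr.pr]
  have hin : ∀ s, |s| ≤ r / 2 → f.γ p (f.pr p) s ∈ closedBall p r := fun s hs =>
    f.γ_mem (δ := r / 2) (by linarith) (mem_ball_self (by linarith)) hs
  have hm := (mono_line h hB (fun q hq => (hA0 q hq).2.1) hin).2
  have h00 : φ (f.γ p (f.pr p) 0) = 0 := by rw [hγ]; simpa using (h.mem p hp).1 hM
  have i0 : (0 : ℝ) ∈ Icc (-(r / 2)) (r / 2) := ⟨by linarith, by linarith⟩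
  have hup : 0 < φ (f.γ p (f.pr p) (r / 2)) :=
    h00.symm.trans_lt (hm i0 ⟨by linarith, le_rfl⟩ (by linarith))
  have hdn : φ (f.γ p (f.pr p) (-(r / 2))) < 0 :=
    (hm ⟨le_rfl, by linarith⟩ i0 (by linarith)).trans_eq h00
  have wu := hB (hin (r / 2) (abs_of_pos (by linarith)).le)
  have wd := hB (hin (-(r / 2)) (by rw [abs_neg]; exact (abs_of_pos (by linarith)).le))
  obtain ⟨a, ha, hU⟩ := ev_ball (l := l) (P := fun k q => 0 < φk k q ∧ 0 < φ q)
    (((J _ wu).val.eventually (lt_mem_nhds hup)).and ((J0 _ wu).val.eventually (lt_mem_nhds hup)))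
  obtain ⟨c, hc, hD⟩ := ev_ball (l := l) (P := fun k q => φk k q < 0 ∧ φ q < 0)
    (((J _ wd).val.eventually (gt_mem_nhds hdn)).and ((J0 _ wd).val.eventually (gt_mem_nhds hdn)))
  rw [hγ] at hU hD
  obtain ⟨_, hU0⟩ := hU.exists
  obtain ⟨_, hD0⟩ := hD.exists
  have s1 : ∀ y : ST, ball y (min (r / 2) (min a c)) ⊆ closedBall y a := fun y =>
    ball_subset_closedBall.trans (closedBall_subset_closedBall
      ((min_le_right _ _).trans (min_le_left _ _)))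
  have s2 : ∀ y : ST, ball y (min (r / 2) (min a c)) ⊆ closedBall y c := fun y =>
    ball_subset_closedBall.trans (closedBall_subset_closedBall
      ((min_le_right _ _).trans (min_le_right _ _)))
  refine ⟨f, r, r / 2, min (r / 2) (min a c), by linarith, by positivity,
    by linarith [min_le_left (r / 2) (min a c)], hB, ⟨fun q hq => (hA0 q hq).2.1,
      fun q hq => (hU0 q (s1 _ hq)).2, fun q hq => (hD0 q (s2 _ hq)).2⟩, ?_⟩
  filter_upwards [hA, hU, hD] with k x y z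
  exact ⟨fun q hq => (x q hq).1, fun q hq => (y q (s1 _ hq)).1, fun q hq => (z q (s2 _ hq)).1⟩

/-- the charts converge -/
theorem tend_Ps (N : Nr l Fk F W φk φ) (hB : closedBall p r ⊆ W) (hr : δ + η ≤ r)
    (b : Bx f φ p r η δ) (c : Ch F X (ball (f.pr p) δ) (f.box p η δ) f.L)
    {Xk : α → E2 × ℝ → E}
    (ck : ∀ᶠ k in l, Ch (Fk k) (Xk k) (ball (f.pr p) δ) (f.box p η δ) f.L) {κ : β → α}
    (hκ : Tendsto κ l' l) {qk : β → E2 × ℝ} {q : E2 × ℝ} (hq : q ∈ ball (f.pr p) δ)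
    (hqk : Tendsto qk l' (𝓝 q)) :
    Tendsto (fun j => Ps (Xk (κ j)) (qk j)) l' (𝓝 (Ps X q)) := by
  have hev : ∀ᶠ j in l', Ps (Xk (κ j)) (qk j) ∈ f.box p η δ ∧
      f.pr (Ps (Xk (κ j)) (qk j)) = qk j ∧ φk (κ j) (Ps (Xk (κ j)) (qk j)) = 0 := by
    filter_upwards [hκ.eventually ck, hκ.eventually N.lock, hqk.eventually (isOpen_ball.mem_nhds hq)]
      with j a a' a''
    exact ⟨a.memW _ a'', Prod.ext (a.left _ a'') rfl,
      (a'.mem _ (hB (f.box_sub hr (a.memW _ a'')))).1 (a.mem _ a'')⟩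
  refine (isCompact_closedBall p r).tendsto_nhds_of_unique_mapClusterPt
    (hev.mono fun j a => f.box_sub hr a.1) fun y hy hcl => ?_
  obtain ⟨u, hu, hy'⟩ := mapClusterPt_iff_ultrafilter.1 hcl
  have hev' := hev.filter_mono hu
  have e1 : f.pr y = q := tendsto_nhds_unique ((f.cont_pr.tendsto y).comp hy')
    ((hqk.mono_left hu).congr' (hev'.mono fun j a => a.2.1.symm))
  have e2 : φ y = 0 := tendsto_nhds_unique (N.jc (hB hy) (hκ.mono_left hu) hy').val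
    (tendsto_const_nhds.congr' (hev'.mono fun j a => a.2.2.symm))
  have e3 : |f.ht p y| ≤ η := le_of_tendsto (((f.cont_ht p).abs.tendsto y).comp hy')
    (hev'.mono fun j a => a.1.2.le)
  have e4 := c.right y ((N.loc.mem y (hB hy)).2 e2) (b.ne_end (e1 ▸ hq) e2 e3)
  rw [← e1]
  exact Prod.ext e4.symm rfl

/-- the conclusion for a cutoff `χ` -/
structure Ok (l : Filter α) (Fk : α → Mv) (F : Mv) (g : Jt → ℝ) (tk : α → ℝ) (t : ℝ)
    (χ : E → ℝ) : Prop where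
  ik : ∀ᶠ k in l, Integrable (fun x => χ x * Gi g (Fk k) (tk k) x) ((Fk k).mu (tk k))
  i : Integrable (fun x => χ x * Gi g F t x) (F.mu t)
  lim : Tendsto (fun k => ∫ x, χ x * Gi g (Fk k) (tk k) x ∂(Fk k).mu (tk k)) l
    (𝓝 (∫ x, χ x * Gi g F t x ∂F.mu t))

theorem ok_near [l.NeBot] (hg : Continuous g) (N : Nr l Fk F W φk φ) (hp : p ∈ W) (hM : p ∈ F.M)
    {tk : α → ℝ} (ht : Tendsto tk l (𝓝 p.2)) : ∃ O : Set E, IsOpen O ∧ p.1 ∈ O ∧
      ∀ χ : E → ℝ, Continuous χ → ∀ C ⊆ O, IsCompact C → (∀ x ∉ C, χ x = 0) →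
        Ok l Fk F g tk p.2 χ := by
  obtain ⟨f, r, η, δ, hη, hδ, hr, hB, b, bk⟩ := exists_setup N hp hM
  obtain ⟨X, c⟩ := exists_box_ch N.loc hB hr hη b
  have hex : ∀ k, ∃ Y, (Fk k).Loc W (φk k) → Bx f (φk k) p r η δ →
      Ch (Fk k) Y (ball (f.pr p) δ) (f.box p η δ) f.L := fun k => by
    by_cases h : (Fk k).Loc W (φk k) ∧ Bx f (φk k) p r η δ
    · obtain ⟨Y, hY⟩ := exists_box_ch h.1 hB hr hη h.2
      exact ⟨Y, fun _ _ => hY⟩
    · exact ⟨X, fun a b => (h ⟨a, b⟩).elim⟩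
  choose Xk hXk using hex
  have ck : ∀ᶠ k in l, Ch (Fk k) (Xk k) (ball (f.pr p) δ) (f.box p η δ) f.L :=
    (N.lock.and bk).mono fun k a => hXk k a.1 a.2
  refine ⟨{x | (x, p.2) ∈ f.box p η δ}, (f.open_box _ _ _).preimage (Continuous.prodMk_left _),
    ⟨mem_ball_self hδ, by simpa [Fr.ht] using hη⟩, fun χ hχ C hC hc h0 => ?_⟩
  have t0 : dist p.2 p.2 < δ := by simpa using hδ
  have htk := ht.eventually (ball_mem_nhds _ hδ)
  have I := int_box hχ hg N.loc hB hr b c t0 hc hC h0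
  have Ik := (N.lock.and (bk.and (ck.and htk))).mono fun k a =>
    int_box hχ hg a.1 hB hr a.2.1 a.2.2.1 a.2.2.2 hc hC h0
  refine ⟨Ik.mono fun k a => a.1, I.1, ?_⟩
  rw [I.2]
  refine (tendsto_int (hc.image f.L.continuous) ?_
    ((contOn_Ga hχ hg N.loc hB hr b c _).mono (sub_Ut t0 hC)) fun z hz => ?_).congr'
      (Ik.mono fun k a => a.2.symm)
  · filter_upwards [N.lock, bk, ck, htk] with k a1 a2 a3 a4
    exact (contOn_Ga hχ hg a1 hB hr a2 a3 _).mono (sub_Ut a4 hC)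
  · have hz' := sub_Ut t0 hC hz
    have hy := f.box_sub hr (c.memW _ hz')
    exact tend_Ga hχ hg (N.jc (hB hy) tendsto_fst (tend_Ps N hB hr b c ck tendsto_fst hz'
      ((tendsto_snd.mono_right nhdsWithin_le_nhds).prodMk_nhds (ht.comp tendsto_fst))))
      (b.pos _ hy).ne'

end Crest.Agent.N250.CMu

end
end

-- ▼ part N250/T/CMu

/-!
# Row 250 (helper13): `ConvMuS`
-/

set_option autoImplicit false
open MeasureTheory Set Filter Topology Function Metric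
open scoped ContDiff InnerProductSpace
open Crest.GeometryTopology.MCF

noncomputable section

namespace Crest.Agent.N250

namespace CMu

open Tr FV Cv

/-- gluing of an additive property of cutoffs -/
theorem glue {P : (E → ℝ) → Prop} (h0 : P fun _ => 0)
    (hadd : ∀ a b, P a → P b → P fun x => a x + b x) {K : Set E} (hK : IsCompact K)
    (h : ∀ x ∈ K, ∃ O : Set E, IsOpen O ∧ x ∈ O ∧
      ∀ χ : E → ℝ, Continuous χ → ∀ C ⊆ O, IsCompact C → (∀ x ∉ C, χ x = 0) → P χ) :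
    ∃ O : Set E, IsOpen O ∧ K ⊆ O ∧
      ∀ χ : E → ℝ, Continuous χ → ∀ C ⊆ O, IsCompact C → (∀ x ∉ C, χ x = 0) → P χ := by
  refine hK.induction_on (p := fun S => ∃ O : Set E, IsOpen O ∧ S ⊆ O ∧
      ∀ χ : E → ℝ, Continuous χ → ∀ C ⊆ O, IsCompact C → (∀ x ∉ C, χ x = 0) → P χ)
    ⟨∅, isOpen_empty, Subset.rfl, fun χ _ C hC _ hz => ?_⟩
    (fun s t hst ⟨O, a, b, c⟩ => ⟨O, a, hst.trans b, c⟩)
    (fun s t ⟨O, a, b, c⟩ ⟨O', a', b', c'⟩ => ⟨O ∪ O', a.union a', union_subset_union b b',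
      fun χ hχ C hC hc hz => ?_⟩) fun x hx => ?_
  · rw [show χ = fun _ => 0 from funext fun x => hz x fun hx => hC hx]
    exact h0
  · obtain ⟨C1, C2, k1, k2, s1, s2, rfl⟩ := hc.binary_compact_cover a a' hC
    obtain ⟨D, kD, hD, sD⟩ := exists_compact_between k1 a s1
    obtain ⟨ψ, e1, e0, -, -⟩ := exists_continuous_one_zero_of_isCompact k1
      isOpen_interior.isClosed_compl (disjoint_compl_right_iff_subset.2 hD)
    have := hadd _ _ (c (fun x => χ x * ψ x) (by fun_prop) D sD kD fun x hx => by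
        rw [e0 fun h => hx (interior_subset h)]; simp)
      (c' (fun x => χ x * (1 - ψ x)) (by fun_prop) C2 s2 k2 fun x hx => by
        by_cases h1 : x ∈ C1
        · rw [e1 h1]; simp
        · rw [hz x fun h => h.elim h1 hx]; simp)
    convert this using 2 with x
    ring
  · obtain ⟨O, a, b, c⟩ := h x hx
    exact ⟨O, mem_nhdsWithin_of_mem_nhds (a.mem_nhds b), O, a, Subset.rfl, c⟩

variable {α : Type} {l : Filter α} {F : Mv} {Fk : α → Mv} {g : Jt → ℝ} {tk : α → ℝ} {t : ℝ}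

theorem ae_zero {O : Set E} (hO : IsOpen O) (hd : ∀ x ∈ O, (x, t) ∉ F.M) {u : E → ℝ}
    (hu : ∀ x ∉ O, u x = 0) : u =ᵐ[F.mu t] 0 := by
  refine measure_mono_null (t := O) (fun x hx => by_contra fun h => hx (hu x h)) ?_
  rw [Mv.mu, Measure.restrict_apply hO.measurableSet,
    show O ∩ F.sl t = ∅ from eq_empty_of_forall_notMem fun x hx => hd x hx.1 hx.2, measure_empty]

theorem ok_away [l.NeBot] {Ω : Set ST} (hΩ : IsOpen Ω) (H : Conv l Fk F Ω) {p : ST} (hp : p ∈ Ω)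
    (hM : p ∉ F.M) (ht : Tendsto tk l (𝓝 p.2)) : ∃ O : Set E, IsOpen O ∧ p.1 ∈ O ∧
      ∀ χ : E → ℝ, Continuous χ → ∀ C ⊆ O, IsCompact C → (∀ x ∉ C, χ x = 0) →
        Ok l Fk F g tk p.2 χ := by
  obtain ⟨U, hU, hd⟩ := H.away p hp hM
  obtain ⟨ε, hε, hb⟩ := Metric.mem_nhds_iff.1 (inter_mem hU (hΩ.mem_nhds hp))
  have hin : ∀ x ∈ ball p.1 ε, ∀ s ∈ ball p.2 ε, (x, s) ∈ ball p ε := fun x hx s hs => by
    rw [← ball_prod_same]; exact ⟨hx, hs⟩
  refine ⟨ball p.1 ε, isOpen_ball, mem_ball_self hε, fun χ _ C hC _ h0 => ?_⟩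
  have hz : ∀ (G : E → ℝ), ∀ x ∉ ball p.1 ε, χ x * G x = 0 := fun G x hx => by
    rw [h0 x fun h => hx (hC h), zero_mul]
  have e1 : ∀ᶠ k in l, (fun x => χ x * Gi g (Fk k) (tk k) x) =ᵐ[(Fk k).mu (tk k)] 0 := by
    filter_upwards [hd, ht.eventually (ball_mem_nhds _ hε)] with k a b
    exact ae_zero isOpen_ball (fun x hx => disjoint_left.1 a (hb (hin x hx _ b)).1) (hz _)
  have e2 : (fun x => χ x * Gi g F p.2 x) =ᵐ[F.mu p.2] 0 := by
    refine ae_zero isOpen_ball (fun x hx hxM => ?_) (hz _)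
    have hx' := hin x hx _ (mem_ball_self hε)
    obtain ⟨W, φ, φk, hW, h, hk, htl⟩ := H.near _ (hb hx').2 hxM
    obtain ⟨xk, h1, h2⟩ := exists_pts h hk htl hW hxM ht
    obtain ⟨k, a, b, c⟩ := (hd.and (h2.and
      ((h1.prodMk_nhds ht).eventually (isOpen_ball.mem_nhds hx')))).exists
    exact disjoint_left.1 a (hb c).1 b
  refine ⟨e1.mono fun k a => (integrable_zero _ _ _).congr a.symm,
    (integrable_zero _ _ _).congr e2.symm, ?_⟩
  rw [integral_eq_zero_of_ae e2]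
  exact tendsto_const_nhds.congr' (e1.mono fun k a => (integral_eq_zero_of_ae a).symm)

theorem Ok.add {a b : E → ℝ} (ha : Ok l Fk F g tk t a) (hb : Ok l Fk F g tk t b) :
    Ok l Fk F g tk t fun x => a x + b x := by
  refine ⟨?_, ?_, ?_⟩ <;> simp only [add_mul]
  · filter_upwards [ha.ik, hb.ik] with k u v using u.add v
  · exact ha.i.add hb.i
  · rw [integral_add ha.i hb.i]
    refine (ha.lim.add hb.lim).congr' ?_
    filter_upwards [ha.ik, hb.ik] with k u v using (integral_add u v).symm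

/-- `ConvMuS` together with the integrability of the integrands -/
theorem ok_one [l.NeBot] {Ω K : Set ST} (hΩ : IsOpen Ω) (H : Conv l Fk F Ω) (hK : IsCompact K)
    (hKΩ : K ⊆ Ω) (hg : Continuous g) (h0 : ∀ q, q.1 ∉ K → g q = 0) (ht : Tendsto tk l (𝓝 t)) :
    Ok l Fk F g tk t fun _ => 1 := by
  have hKt : IsCompact (Prod.fst '' (K ∩ {q | q.2 = t})) :=
    (hK.inter_right (isClosed_eq continuous_snd continuous_const)).image continuous_fst
  obtain ⟨O, hO, hs, hP⟩ := glue (P := Ok l Fk F g tk t)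
    ⟨by simp, by simp, by simp⟩ (fun _ _ => Ok.add) hKt (by
      rintro _ ⟨p, ⟨hp, rfl⟩, rfl⟩
      by_cases hM : p ∈ F.M
      · obtain ⟨W, φ, φk, hW, h, hk, htl⟩ := H.near p (hKΩ hp) hM
        exact ok_near hg ⟨h, hk, htl⟩ hW hM ht
      · exact ok_away hΩ H (hKΩ hp) hM ht)
  obtain ⟨D, kD, hD, sD⟩ := exists_compact_between hKt hO hs
  obtain ⟨D', kD', hD', sD'⟩ := exists_compact_between hKt isOpen_interior hD
  obtain ⟨ψ, e1, e0, -, -⟩ := exists_continuous_one_zero_of_isCompact kD'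
    isOpen_interior.isClosed_compl (disjoint_compl_right_iff_subset.2 sD')
  have k := hP ψ ψ.continuous D sD kD fun x hx => e0 fun h => hx (interior_subset h)
  have key : ∀ (G : Mv) (s : ℝ), (∀ x, (x, s) ∈ K → x ∈ interior D') →
      (fun x => ψ x * Gi g G s x) = fun x => 1 * Gi g G s x := fun G s hs => funext fun x => by
    by_cases hx : (x, s) ∈ K
    · rw [e1 (interior_subset (hs x hx))]; rfl
    · rw [show Gi g G s x = 0 from h0 _ hx, mul_zero, mul_zero]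
  have e2 := key F t fun x hx => hD' ⟨_, ⟨hx, rfl⟩, rfl⟩
  have hcl : IsClosed (Prod.snd '' (K ∩ {q | q.1 ∉ interior D'})) :=
    ((hK.inter_right (isOpen_interior.isClosed_compl.preimage continuous_fst)).image
      continuous_snd).isClosed
  have e3 : ∀ᶠ j in l, (fun x => ψ x * Gi g (Fk j) (tk j) x) =
      fun x => 1 * Gi g (Fk j) (tk j) x := by
    filter_upwards [ht.eventually (hcl.isOpen_compl.mem_nhds
      (by rintro ⟨q, ⟨a, b⟩, rfl⟩; exact b (hD' ⟨q, ⟨a, rfl⟩, rfl⟩)))] with j a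
    exact key _ _ fun x hx => by_contra fun h => a ⟨_, ⟨hx, h⟩, rfl⟩
  refine ⟨?_, e2 ▸ k.i, ?_⟩
  · filter_upwards [k.ik, e3] with j a b using b ▸ a
  · rw [← e2]
    exact k.lim.congr' (e3.mono fun j a => by simp only [a])

end CMu

theorem convMuS_holds : ConvMuS := by
  intro α l Fk F Ω K hΩ H hK hKΩ g hg h0 tk t ht
  rcases l.eq_or_neBot with rfl | hl
  · exact tendsto_bot
  simpa only [one_mul, CMu.Gi] using (CMu.ok_one hΩ H hK hKΩ hg h0 ht).lim

end Crest.Agent.N250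

end
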